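import Vale.Agent.P066.Lab.H269.Deg
import Vale.Agent.P066.Lab.Deriv

/-!
# Levels of `K_d · h` at all zero colourings (S3b), (S3d)
-/

set_option autoImplicit false

open Finset MvPolynomial

namespace Vale.Agent.P066.Lab

noncomputable section

variable {S : Type} [Fintype S] [DecidableEq S] {k : Type} [Field k] {a : S → S → ℕ} {θ : S → ℤ}

/-- If `K_d ∈ J_c` then every multiple of `K_d` has level `-∞` at `c`. -/
theorem lev_of_not_zc {c d : S → ℕ} (hd : Zc θ d) (hm : ¬ Zc θ (meet c d)) (n : ℤ)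
    (f : MvPolynomial S k) : Lev k a θ c n (KC k a d * f) := by
  rw [lev_iff]
  exact DL.of_mem_map (Tc_mem (Ideal.mul_mem_right _ _ (KC_mem_JC hd hm))) _

/-- The main estimate. -/
theorem lev_meet (hsym : SymZ a θ) {c d : S → ℕ} (hc : Zc θ c) (hd : Zc θ d)
    (hm : Zc θ (meet c d)) {w p : MvPolynomial S k} {n l : ℤ}
    (hw : Lev k a θ (meet c d) l w) (hp : DL (JC k a θ (meet c d)) n (Tc k c p)) :
    Lev k a θ c (n + l + 2 * CC a d - (nb (meet c d) - nb c)) (KC k a d * (w * p)) := by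
  rw [lev_iff] at hw ⊢
  rw [KC_eq_mul c d, mul_assoc, map_mul]
  have hin : Tc k c (QP k a (inP c (meet c d))) = C (QP k a (inP c (meet c d))) :=
    Tc_QP fun q hq => by
      simp only [inP, mem_filter, mem_univ, true_and] at hq
      exact hq.1
  rw [hin]
  refine DL.C_mul_of (I' := JC k a θ (meet c d))
    (fun g hg => inP_mul_mem hm (ref_meet_left c d) hg) ?_
  rw [map_mul, map_mul]
  have h1 := DL_Tc_QP (k := k) (a := a) (JC k a θ (meet c d)) c (crP c d)
  have h2 := DL.of_ref (ref_meet_left c d) hw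
  refine (h1.mul (h2.mul hp)).mono le_rfl (le_of_eq ?_)
  have := CC_meet hsym hc hd hm
  linarith

/-- The product of means `∏ u_i^{α_i}`. -/
def um (k : Type) [Field k] (c : S → ℕ) (α : ℕ →₀ ℕ) : MvPolynomial S k :=
  α.prod fun i n => uk k c i ^ n

/-- (S3b), one term: `K_d w u^α` has level `≤ 2|α| + |d|` everywhere. -/
theorem lev_KC_mul (hsym : SymZ a θ) {c d : S → ℕ} (hc : Zc θ c) (hd : Zc θ d)
    {w : MvPolynomial S k} (hw : Gc k a θ d w) (α : ℕ →₀ ℕ) :
    Lev k a θ c (2 * (α.degree : ℤ) + nb d) (KC k a d * (w * um k d α)) := by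
  by_cases hm : Zc θ (meet c d)
  · have h1 := hw (meet c d) hm (ref_meet_right c d)
    have h2 := lev_meet hsym hc hd hm h1 (DL_Tc_prod_uk (JC k a θ (meet c d)) c d α)
    have h3 := nb_le_of_ref (ref_meet_left c d)
    rw [lev_iff] at h2 ⊢
    refine h2.mono le_rfl ?_
    linarith
  · exact lev_of_not_zc hd hm _ _

/-- (S3d), one term: at a zero colouring with another set of blocks the level is smaller, if `w`
satisfies the improved bounds at the strict refinements. -/
theorem lev_KC_mul' (hsym : SymZ a θ) {c d : S → ℕ} (hc : Zc θ c) (hd : Zc θ d)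
    (hcd : ¬ (Ref c d ∧ Ref d c)) {w : MvPolynomial S k} (hw : Gc k a θ d w)
    (hw' : ∀ m : S → ℕ, Zc θ m → Ref m d → ¬ Ref d m → Lev k a θ m (nb d - 2 * CC a d - 1) w)
    (α : ℕ →₀ ℕ) :
    Lev k a θ c (2 * (α.degree : ℤ) + nb d - 1) (KC k a d * (w * um k d α)) := by
  by_cases hm : Zc θ (meet c d)
  · have h3 := nb_le_of_ref (ref_meet_left c d)
    have hu := DL_Tc_prod_uk (JC k a θ (meet c d)) c d α
    by_cases h4 : nb c < nb (meet c d)
    · have h1 := hw (meet c d) hm (ref_meet_right c d)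
      have h2 := lev_meet hsym hc hd hm h1 hu
      rw [lev_iff] at h2 ⊢
      refine h2.mono le_rfl ?_
      have h5 : nb c + 1 ≤ nb (meet c d) := h4
      linarith
    · have h5 : Ref c (meet c d) := ref_of_nb_le (ref_meet_left c d) (not_lt.1 h4)
      have h6 : Ref c d := h5.trans (ref_meet_right c d)
      have h7 : ¬ Ref d (meet c d) := fun h => hcd ⟨h6, h.trans (ref_meet_left c d)⟩
      have h1 := hw' (meet c d) hm (ref_meet_right c d) h7
      have h2 := lev_meet hsym hc hd hm h1 hu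
      rw [lev_iff] at h2 ⊢
      refine h2.mono le_rfl ?_
      linarith
  · exact lev_of_not_zc hd hm _ _

/-- (S3b). -/
theorem fil_KC_mul (hsym : SymZ a θ) {d : S → ℕ} (hd : Zc θ d) {n0 : ℕ}
    (W : (ℕ →₀ ℕ) →₀ MvPolynomial S k) (hW : ∀ α, Gc k a θ d (W α))
    (hW0 : ∀ α, W α ≠ 0 → α.degree = n0) :
    Fil k a θ (2 * n0 + nb d) (KC k a d * W.sum fun α w => w * um k d α) := by
  intro c hc
  unfold Finsupp.sum
  rw [mul_sum]
  refine Lev.sum fun α hα => ?_
  rw [← hW0 α (Finsupp.mem_support_iff.1 hα)]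
  exact lev_KC_mul hsym hc hd (hW α) α

/-- (S3d). -/
theorem lev_KC_mul_sum (hsym : SymZ a θ) {c d : S → ℕ} (hc : Zc θ c) (hd : Zc θ d)
    (hcd : ¬ (Ref c d ∧ Ref d c)) {n0 : ℕ}
    (W : (ℕ →₀ ℕ) →₀ MvPolynomial S k) (hW : ∀ α, Gc k a θ d (W α))
    (hW' : ∀ α, ∀ m : S → ℕ, Zc θ m → Ref m d → ¬ Ref d m →
      Lev k a θ m (nb d - 2 * CC a d - 1) (W α))
    (hW0 : ∀ α, W α ≠ 0 → α.degree = n0) :
    Lev k a θ c (2 * n0 + nb d - 1) (KC k a d * W.sum fun α w => w * um k d α) := by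
  unfold Finsupp.sum
  rw [mul_sum]
  refine Lev.sum fun α hα => ?_
  rw [← hW0 α (Finsupp.mem_support_iff.1 hα)]
  exact lev_KC_mul' hsym hc hd hcd (hW α) (hW' α) α

/-- If the level is `≤ n - 1` then the symbol of level `n` vanishes. -/
theorem Sb_eq_zero_of_lev {c : S → ℕ} {n : ℤ} {f : MvPolynomial S k} {e : ℕ}
    (h : Lev k a θ c (n - 1) f) (he : 2 * (e : ℤ) + nb c = n + 2 * CC a c) :
    Sb k a θ c e f = 0 := by
  classical
  unfold Sb
  ext α
  rw [coeff_homogeneousComponent, coeff_zero]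
  split_ifs with h1
  · rw [coeff_map, Ideal.Quotient.eq_zero_iff_mem]
    refine h α ?_
    rw [h1]
    linarith
  · rfl

end

end Vale.Agent.P066.Lab
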