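import Vale.Agent.P066.Lab.H269.S3
import Vale.Agent.P066.Lab.H749.Lead
import Vale.Agent.P066.Lab.EQ
import Vale.Agent.P066.Lab.H362.Eq2
import Vale.Agent.P066.Lab.Rel

/-!
# Changing the order of the blocks (T2)

`K_{σ ∘ c} · h - (-1)^{inv} K_c · h` has smaller level.
-/

set_option autoImplicit false

open Finset MvPolynomial

namespace Vale.Agent.P066.Lab

open Vale.Agent.P066.Lab.H749

noncomputable section

variable {S : Type} [Fintype S] [DecidableEq S] {k : Type} [Field k] {a : S → S → ℕ} {θ : S → ℤ}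

/-- the number of arrows in a set of pairs -/
def EN (a : S → S → ℕ) (E : Finset (S × S)) : ℕ := ∑ p ∈ E, a p.1 p.2

/-- leading part of `QP E` at a colouring `c` -/
theorem top_QP (c : S → ℕ) (E : Finset (S × S)) :
    Top (EN a E) (Tq k a θ c (QP k a E))
      (∏ p ∈ E, (X (c p.2) - X (c p.1) : MvPolynomial ℕ (MvPolynomial S k ⧸ JC k a θ c)) ^
        a p.1 p.2) := by
  unfold QP EN
  rw [map_prod]
  refine top_prod _ _ _ _ fun p _ => ?_
  rw [map_pow]
  have h1 : Tq k a θ c (X p.2 - X p.1) = C (Ideal.Quotient.mk (JC k a θ c) (X p.2 - X p.1))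
      + (X (c p.2) - X (c p.1)) := by
    rw [Tq_apply, map_sub, Tc_X, Tc_X]
    simp only [map_sub, map_add, map_C, map_X]
    ring
  rw [h1]
  have h2 := (top_linear (Ideal.Quotient.mk (JC k a θ c) (X p.2 - X p.1))
    (L := (X (c p.2) - X (c p.1) : MvPolynomial ℕ (MvPolynomial S k ⧸ JC k a θ c)))
    ((isHomogeneous_X _ _).sub (isHomogeneous_X _ _))).pow (a p.1 p.2)
  simpa using h2

/-- leading form of `K_{σ ∘ c}` at `c` -/
theorem prod_recolour (R : Type) [CommRing R] (hs : SymZ a θ) {σ : ℕ → ℕ}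
    (hσ : Function.Injective σ) (c : S → ℕ) (hc : Zc θ c) :
    ∏ p ∈ univ.filter (fun p : S × S => (σ ∘ c) p.1 < (σ ∘ c) p.2),
      (X (c p.2) - X (c p.1) : MvPolynomial ℕ R) ^ a p.1 p.2 =
      (-1) ^ invN a σ c * PU a R c := by
  have h := PU_recolour R hs hσ c hc
  apply rename_injective σ hσ
  rw [map_mul, map_pow, map_neg, map_one, ← h]
  unfold PU
  rw [map_prod]
  refine prod_congr rfl fun p _ => ?_
  rw [map_pow, map_sub, rename_X, rename_X]
  rfl

theorem EN_recolour (hs : SymZ a θ) {σ : ℕ → ℕ} (hσ : Function.Injective σ) (c : S → ℕ)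
    (hc : Zc θ c) :
    EN a (univ.filter fun p : S × S => (σ ∘ c) p.1 < (σ ∘ c) p.2) = CN a c := by
  have h := CC_recolour hs hσ c hc
  have h2 := CN_cast (a := a) c
  unfold CC at h
  unfold EN
  rw [← Nat.cast_inj (R := ℤ), h2, ← CC_recolour hs hσ c hc]
  unfold CC
  push_cast
  rfl

theorem um_eq (c : S → ℕ) (α : ℕ →₀ ℕ) : um k c α = ∏ i ∈ α.support, uk k c i ^ α i := rfl

theorem uk_recolour {σ : ℕ → ℕ} (hσ : Function.Injective σ) (c : S → ℕ) (i : ℕ) :
    uk k (σ ∘ c) (σ i) = uk k c i := by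
  unfold uk
  have : blk (σ ∘ c) (σ i) = blk c i := by
    ext s
    simp [hσ.eq_iff]
  rw [this]

theorem um_recolour {σ : ℕ → ℕ} (hσ : Function.Injective σ) (c : S → ℕ) (α : ℕ →₀ ℕ) :
    um k (σ ∘ c) (α.mapDomain σ) = um k c α := by
  unfold um
  rw [Finsupp.prod_mapDomain_index_inj hσ]
  refine Finsupp.prod_congr fun i _ => ?_
  rw [uk_recolour hσ]

theorem Lev.sub' {c : S → ℕ} {n : ℤ} {f g : MvPolynomial S k}
    (hf : Lev k a θ c n f) (hg : Lev k a θ c n g) : Lev k a θ c n (f - g) := by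
  rw [lev_iff] at hf hg ⊢
  rw [map_sub]
  exact hf.sub hg

/-- Same partition: the levels agree. -/
theorem Lev_congr (hs : SymZ a θ) {c c' : S → ℕ} (h : Ref c c') (h' : Ref c' c) (hc : Zc θ c)
    {n : ℤ} {f : MvPolynomial S k} (hf : Lev k a θ c n f) : Lev k a θ c' n f := by
  obtain ⟨σ, hσ, rfl⟩ := exists_recolour c c' fun s t => ⟨h s t, h' s t⟩
  exact (Lev_recolour k hs hσ c hc n f).2 hf

/-- (T2) Changing the order of the blocks changes `K_c · w · u^α` by the sign `(-1)^{inv}` modulo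
smaller level. -/
theorem Fil_KC_recolour [CharZero k] (hs : SymZ a θ) {σ : ℕ → ℕ} (hσ : Function.Injective σ)
    {c : S → ℕ} (hc : Zc θ c) {w : MvPolynomial S k} (hw : Gc k a θ c w) {α : ℕ →₀ ℕ}
    (hα : ∀ i ∈ α.support, i ∈ univ.image c) :
    Fil k a θ (2 * (α.degree : ℤ) + nb c - 1)
      (KC k a (σ ∘ c) * (w * um k c α) - (-1) ^ invN a σ c * (KC k a c * (w * um k c α))) := by
  have hc' : Zc θ (σ ∘ c) := (Zc_recolour hσ c).2 hc
  have hw' : Gc k a θ (σ ∘ c) w := (Gc_recolour k hs hσ c hc w).2 hw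
  have href : Ref c (σ ∘ c) := fun s t h => congrArg σ h
  have href' : Ref (σ ∘ c) c := fun s t h => hσ h
  have hsgn : ∀ {c' : S → ℕ} {n : ℤ} {f : MvPolynomial S k}, Lev k a θ c' n f →
      Lev k a θ c' n ((-1) ^ invN a σ c * f) := by
    intro c' n f hf
    have := hf.C_mul ((-1) ^ invN a σ c)
    rwa [map_pow, map_neg, map_one] at this
  intro m hm
  by_cases hmc : Ref m c ∧ Ref c m
  · -- the same partition
    refine Lev_congr hs hmc.2 hmc.1 hc ?_
    have e1 : Top (CN a c + α.degree) (Tq k a θ c (KC k a (σ ∘ c) * (w * um k c α)))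
        ((-1) ^ invN a σ c * PU a _ c * monomial α (Ideal.Quotient.mk (JC k a θ c) w)) := by
      rw [map_mul, ← EN_recolour hs hσ c hc, ← prod_recolour _ hs hσ c hc]
      exact (top_QP c _).mul (top_term hc hw hα)
    have e2 : Top (CN a c + α.degree) (Tq k a θ c (KC k a c * (w * um k c α)))
        (PU a _ c * monomial α (Ideal.Quotient.mk (JC k a θ c) w)) := by
      rw [map_mul]
      exact (top_KC c).mul (top_term hc hw hα)
    rw [lev_iff]
    intro β hβ
    have hCN := CN_cast (a := a) c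
    have hβ' : CN a c + α.degree ≤ β.degree := by
      have : nb c ≤ nb c := le_rfl
      omega
    have e3 : ((-1 : MvPolynomial ℕ (MvPolynomial S k ⧸ JC k a θ c)) ^ invN a σ c) =
        C ((-1) ^ invN a σ c) := by rw [map_pow, map_neg, map_one]
    have e4 : Tq k a θ c ((-1) ^ invN a σ c * (KC k a c * (w * um k c α))) =
        C ((-1) ^ invN a σ c) * Tq k a θ c (KC k a c * (w * um k c α)) := by
      rw [map_mul, map_pow, map_neg, map_one, e3]
    rw [← Ideal.Quotient.eq_zero_iff_mem, ← coeff_Tq, map_sub, coeff_sub, e4, coeff_C_mul]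
    rcases hβ'.lt_or_eq with h | h
    · rw [e1.1 β h, e2.1 β h, mul_zero, sub_zero]
    · have f1 := congrArg (coeff β) e1.2
      have f2 := congrArg (coeff β) e2.2
      rw [coeff_homogeneousComponent, if_pos h.symm] at f1 f2
      rw [f1, f2, mul_assoc, e3, coeff_C_mul, sub_self]
  · -- another partition
    have h1 := lev_KC_mul' hs hm hc hmc hw (fun m' hm' h1 h2 => Gc_lev_lt hs hw hm' h1 h2) α
    have h2 := lev_KC_mul' hs hm hc' (d := σ ∘ c) (fun h => hmc
      ⟨h.1.trans href', href.trans h.2⟩) hw'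
      (fun m' hm' h1 h2 => Gc_lev_lt hs hw' hm' h1 h2) (α.mapDomain σ)
    rw [um_recolour hσ, Finsupp.degree_mapDomain, nb_recolour hσ] at h2
    exact h2.sub' (hsgn h1)

end

end Vale.Agent.P066.Lab
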