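import Vale.Agent.P066.Lab.Basic

/-!
# Doubled degrees of polynomials modulo an ideal; change of colouring
-/

set_option autoImplicit false

open Finset MvPolynomial

namespace Vale.Agent.P066.Lab

noncomputable section

/-! ### the predicate `DL` -/

section DL

variable {σ τ : Type} {R : Type} [CommRing R]

/-- twice the degree of `F` modulo `I` is at most `M` -/
def DL (I : Ideal R) (M : ℤ) (F : MvPolynomial σ R) : Prop :=
  ∀ α : σ →₀ ℕ, M < 2 * (α.degree : ℤ) → coeff α F ∈ I

theorem DL.mono {I I' : Ideal R} {M M' : ℤ} {F : MvPolynomial σ R} (h : DL I M F) (hI : I ≤ I')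
    (hM : M ≤ M') : DL I' M' F := fun α hα => hI (h α (lt_of_le_of_lt hM hα))

theorem DL.zero (I : Ideal R) (M : ℤ) : DL I M (0 : MvPolynomial σ R) := fun α _ => by simp

theorem DL.add {I : Ideal R} {M : ℤ} {F G : MvPolynomial σ R} (hF : DL I M F) (hG : DL I M G) :
    DL I M (F + G) := fun α hα => by
  rw [coeff_add]; exact add_mem (hF α hα) (hG α hα)

theorem DL.neg {I : Ideal R} {M : ℤ} {F : MvPolynomial σ R} (hF : DL I M F) :
    DL I M (-F) := fun α hα => by
  rw [coeff_neg]; exact neg_mem (hF α hα)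

theorem DL.sub {I : Ideal R} {M : ℤ} {F G : MvPolynomial σ R} (hF : DL I M F) (hG : DL I M G) :
    DL I M (F - G) := fun α hα => by
  rw [coeff_sub]; exact sub_mem (hF α hα) (hG α hα)

theorem DL.sum {γ : Type*} {I : Ideal R} {M : ℤ} {F : γ → MvPolynomial σ R} (t : Finset γ)
    (h : ∀ x ∈ t, DL I M (F x)) : DL I M (∑ x ∈ t, F x) := fun α hα => by
  rw [coeff_sum]; exact sum_mem fun x hx => h x hx α hα

theorem DL.mul [DecidableEq σ] {I : Ideal R} {M N : ℤ} {F G : MvPolynomial σ R} (hF : DL I M F)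
    (hG : DL I N G) : DL I (M + N) (F * G) := fun α hα => by
  rw [coeff_mul]
  refine sum_mem fun x hx => ?_
  have hd : (x.1.degree : ℤ) + (x.2.degree : ℤ) = (α.degree : ℤ) := by
    rw [← mem_antidiagonal.1 hx, map_add]; push_cast; ring
  by_cases h : M < 2 * (x.1.degree : ℤ)
  · exact Ideal.mul_mem_right _ _ (hF _ h)
  · exact Ideal.mul_mem_left _ _ (hG _ (by omega))

theorem DL.C (I : Ideal R) (f : R) : DL I 0 (C f : MvPolynomial σ R) := fun α hα => by
  classical
  rw [coeff_C, if_neg]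
  · exact zero_mem _
  · rintro rfl
    simp at hα

theorem DL.C_of_mem {I : Ideal R} {f : R} (hf : f ∈ I) (M : ℤ) :
    DL I M (MvPolynomial.C f : MvPolynomial σ R) := fun α _ => by
  classical
  rw [coeff_C]
  split_ifs
  · exact hf
  · exact zero_mem _

theorem DL.one (I : Ideal R) : DL I 0 (1 : MvPolynomial σ R) := by
  have := DL.C (σ := σ) I 1
  rwa [map_one] at this

theorem DL.X (I : Ideal R) (i : σ) : DL I 2 (X i : MvPolynomial σ R) := fun α hα => by
  classical
  rw [coeff_X', if_neg]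
  · exact zero_mem _
  · rintro rfl
    simp at hα

theorem DL.pow [DecidableEq σ] {I : Ideal R} {M : ℤ} {F : MvPolynomial σ R} (hF : DL I M F)
    (n : ℕ) : DL I (n * M) (F ^ n) := by
  induction n with
  | zero => simpa using DL.one I
  | succ n ih =>
    rw [pow_succ]
    refine (ih.mul hF).mono le_rfl ?_
    push_cast; linarith

theorem DL.prod [DecidableEq σ] {γ : Type*} {I : Ideal R} (t : Finset γ) {M : γ → ℤ}
    {F : γ → MvPolynomial σ R} (h : ∀ x ∈ t, DL I (M x) (F x)) :
    DL I (∑ x ∈ t, M x) (∏ x ∈ t, F x) := by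
  classical
  induction t using Finset.induction_on with
  | empty => simpa using DL.one I
  | insert x t hx ih =>
    rw [sum_insert hx, prod_insert hx]
    exact (h x (mem_insert_self _ _)).mul (ih fun y hy => h y (mem_insert_of_mem hy))

theorem DL.C_mul [DecidableEq σ] {I : Ideal R} {M : ℤ} {F : MvPolynomial σ R} (f : R)
    (hF : DL I M F) : DL I M (MvPolynomial.C f * F) := by
  have := (DL.C (σ := σ) I f).mul hF
  rwa [zero_add] at this

/-- multiplication by a constant which maps `I'` into `I` -/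
theorem DL.C_mul_of {I I' : Ideal R} {M : ℤ} {F : MvPolynomial σ R} {f : R}
    (h : ∀ g ∈ I', f * g ∈ I) (hF : DL I' M F) : DL I M (MvPolynomial.C f * F) := fun α hα => by
  rw [coeff_C_mul]; exact h _ (hF α hα)

theorem DL.of_mem_map {I : Ideal R} {F : MvPolynomial σ R} (hF : F ∈ I.map MvPolynomial.C)
    (M : ℤ) : DL I M F := fun α _ => mem_map_C_iff.1 hF α

theorem DL.rename {I : Ideal R} {M : ℤ} {F : MvPolynomial σ R} (g : σ → τ) (hF : DL I M F) :
    DL I M (MvPolynomial.rename g F) := fun α hα => by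
  classical
  have hF' : F = ∑ β ∈ F.support, monomial β (coeff β F) := (support_sum_monomial_coeff F).symm
  rw [hF', map_sum, coeff_sum]
  refine sum_mem fun β _ => ?_
  rw [rename_monomial, coeff_monomial]
  split_ifs with h
  · refine hF β ?_
    rw [← Finsupp.degree_mapDomain (f := g), h]
    exact hα
  · exact zero_mem _

end DL

variable {S : Type} [Fintype S] [DecidableEq S] {k : Type} [Field k] {a : S → S → ℕ} {θ : S → ℤ}

theorem lev_iff {c : S → ℕ} {n : ℤ} {f : MvPolynomial S k} :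
    Lev k a θ c n f ↔ DL (JC k a θ c) (n + 2 * CC a c - nb c) (Tc k c f) := by
  unfold Lev DL
  refine forall_congr' fun α => ?_
  constructor
  · intro h h'; exact h (by linarith)
  · intro h h'; exact h (by linarith)

/-! ### change of colouring -/

theorem Ref.exists_map {m c : S → ℕ} (h : Ref m c) : ∃ g : ℕ → ℕ, ∀ s, c s = g (m s) := by
  classical
  refine ⟨fun j => if hj : ∃ s, m s = j then c hj.choose else 0, fun s => ?_⟩
  have hj : ∃ t, m t = m s := ⟨s, rfl⟩
  simp only [dif_pos hj]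
  exact h _ _ hj.choose_spec.symm

theorem rename_Tc {m c : S → ℕ} {g : ℕ → ℕ} (hg : ∀ s, c s = g (m s)) (f : MvPolynomial S k) :
    rename g (Tc k m f) = Tc k c f := by
  have h : ((rename g : MvPolynomial ℕ (MvPolynomial S k) →ₐ[MvPolynomial S k] _).restrictScalars
      k).comp (Tc k m) = Tc k c := by
    refine MvPolynomial.algHom_ext fun s => ?_
    simp [hg s]
  exact congrArg (fun φ : MvPolynomial S k →ₐ[k] _ => φ f) h

theorem DL.of_ref {m c : S → ℕ} (h : Ref m c) {I : Ideal (MvPolynomial S k)} {M : ℤ}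
    {f : MvPolynomial S k} (hf : DL I M (Tc k m f)) : DL I M (Tc k c f) := by
  obtain ⟨g, hg⟩ := h.exists_map
  rw [← rename_Tc hg]
  exact hf.rename g

theorem DL_Tc_QP (I : Ideal (MvPolynomial S k)) (c : S → ℕ) (E : Finset (S × S)) :
    DL I (2 * ∑ p ∈ E, (a p.1 p.2 : ℤ)) (Tc k c (QP k a E)) := by
  unfold QP
  rw [map_prod, mul_sum]
  refine DL.prod _ fun p _ => ?_
  rw [map_pow]
  have h : DL I 2 (Tc k c (X p.2 - X p.1)) := by
    rw [map_sub, Tc_X, Tc_X]
    exact (((DL.C I _).mono le_rfl (by norm_num)).add (DL.X I _)).sub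
      (((DL.C I _).mono le_rfl (by norm_num)).add (DL.X I _))
  exact (h.pow _).mono le_rfl (by linarith)

theorem DL_Tc_uk (I : Ideal (MvPolynomial S k)) (c d : S → ℕ) (i : ℕ) :
    DL I 2 (Tc k c (uk k d i)) := by
  unfold uk
  rw [map_mul, map_sum]
  have h1 : Tc k c (C (((blk d i).card : k)⁻¹)) = C (C (((blk d i).card : k)⁻¹)) := by
    simp [Tc, algebraMap_eq]
  rw [h1]
  refine DL.C_mul _ (DL.sum _ fun s _ => ?_)
  rw [Tc_X]
  exact ((DL.C I _).mono le_rfl (by norm_num)).add (DL.X I _)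

theorem DL_Tc_prod_uk (I : Ideal (MvPolynomial S k)) (c d : S → ℕ) (α : ℕ →₀ ℕ) :
    DL I (2 * (α.degree : ℤ)) (Tc k c (α.prod fun i n => uk k d i ^ n)) := by
  unfold Finsupp.prod
  rw [map_prod, Finsupp.degree_apply, Nat.cast_sum, mul_sum]
  refine DL.prod _ fun i _ => ?_
  rw [map_pow]
  exact ((DL_Tc_uk I c d i).pow _).mono le_rfl (by linarith)

/-! ### number of blocks -/

theorem nb_le_of_ref {m c : S → ℕ} (h : Ref m c) : nb c ≤ nb m := by
  classical
  obtain ⟨g, hg⟩ := h.exists_map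
  have : univ.image c = (univ.image m).image g := by
    rw [image_image]
    exact image_congr fun s _ => hg s
  unfold nb
  rw [this]
  exact_mod_cast card_image_le

theorem ref_of_nb_le {m c : S → ℕ} (h : Ref m c) (h' : nb m ≤ nb c) : Ref c m := by
  classical
  obtain ⟨g, hg⟩ := h.exists_map
  have himg : univ.image c = (univ.image m).image g := by
    rw [image_image]
    exact image_congr fun s _ => hg s
  have hcard : ((univ.image m).image g).card = (univ.image m).card := by
    refine le_antisymm card_image_le ?_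
    rw [← himg]
    unfold nb at h'
    exact_mod_cast h'
  have hinj := card_image_iff.1 hcard
  intro s t hst
  refine hinj (by simp) (by simp) ?_
  rw [← hg, ← hg, hst]

/-! ### symmetry -/

theorem sym_sum (hsym : SymZ a θ) {m : S → ℕ} (hm : Zc θ m) (P : ℕ → ℕ → Prop)
    [DecidableRel P] (hP : ∀ i, ¬ P i i) :
    ∑ p ∈ univ.filter (fun p : S × S => P (m p.1) (m p.2)), (a p.1 p.2 : ℤ) =
      ∑ p ∈ univ.filter (fun p : S × S => P (m p.1) (m p.2)), (a p.2 p.1 : ℤ) := by
  classical
  have key : ∀ f : S → S → ℤ,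
      ∑ p ∈ univ.filter (fun p : S × S => P (m p.1) (m p.2)), f p.1 p.2 =
      ∑ q ∈ (univ.image m ×ˢ univ.image m).filter (fun q => P q.1 q.2),
        ∑ s ∈ blk m q.1, ∑ t ∈ blk m q.2, f s t := by
    intro f
    rw [← sum_fiberwise_of_maps_to (s := univ.filter (fun p : S × S => P (m p.1) (m p.2)))
      (t := (univ.image m ×ˢ univ.image m).filter (fun q => P q.1 q.2))
      (g := fun p => (m p.1, m p.2))]
    · refine sum_congr rfl fun q hq => ?_
      rw [← sum_product']
      refine sum_congr ?_ fun _ _ => rfl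
      ext p
      simp only [mem_filter, mem_univ, true_and, mem_product, mem_blk, Prod.ext_iff] at hq ⊢
      constructor
      · rintro ⟨-, h1, h2⟩; exact ⟨h1, h2⟩
      · rintro ⟨h1, h2⟩; exact ⟨by rw [h1, h2]; exact hq.2, h1, h2⟩
    · intro p hp
      simp only [mem_filter, mem_univ, true_and, mem_product, mem_image] at hp ⊢
      exact ⟨⟨⟨_, rfl⟩, ⟨_, rfl⟩⟩, hp⟩
  rw [key fun s t => (a s t : ℤ), key fun s t => (a t s : ℤ)]
  refine sum_congr rfl fun q hq => ?_
  rw [mem_filter] at hq
  have hne : q.1 ≠ q.2 := fun h => hP q.1 (by have := hq.2; rwa [← h] at this)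
  have hdis : Disjoint (blk m q.1) (blk m q.2) := by
    rw [disjoint_left]
    intro s h1 h2
    exact hne ((mem_blk.1 h1).symm.trans (mem_blk.1 h2))
  have := hsym _ _ hdis (hm q.1) (hm q.2)
  unfold ar at this
  rw [this, sum_comm]

theorem sum_swap (P : S → S → Prop) [DecidableRel P] :
    ∑ p ∈ univ.filter (fun p : S × S => P p.1 p.2), (a p.2 p.1 : ℤ) =
      ∑ p ∈ univ.filter (fun p : S × S => P p.2 p.1), (a p.1 p.2 : ℤ) := by
  refine sum_bij' (fun p _ => p.swap) (fun p _ => p.swap) ?_ ?_ ?_ ?_ ?_ <;> simp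

/-- `C_π` does not depend on the order of the blocks. -/
theorem two_CC (hsym : SymZ a θ) {m : S → ℕ} (hm : Zc θ m) :
    2 * CC a m = ∑ p ∈ univ.filter (fun p : S × S => m p.1 ≠ m p.2), (a p.1 p.2 : ℤ) := by
  have h1 : univ.filter (fun p : S × S => m p.1 ≠ m p.2) =
      univ.filter (fun p : S × S => m p.1 < m p.2) ∪
      univ.filter (fun p : S × S => m p.2 < m p.1) := by
    ext p
    simp only [mem_filter, mem_univ, true_and, mem_union]
    omega
  have hd : Disjoint (univ.filter (fun p : S × S => m p.1 < m p.2))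
      (univ.filter (fun p : S × S => m p.2 < m p.1)) := by
    rw [disjoint_left]
    intro p h1 h2
    simp only [mem_filter, mem_univ, true_and] at h1 h2
    omega
  rw [h1, sum_union hd, ← sum_swap (fun s t => m s < m t),
    ← sym_sum hsym hm (fun i j => i < j) (fun i => lt_irrefl i)]
  unfold CC
  ring

theorem cross_sum (hsym : SymZ a θ) {c d : S → ℕ} (hm : Zc θ (meet c d)) :
    2 * ∑ p ∈ crP c d, (a p.1 p.2 : ℤ) =
      ∑ p ∈ univ.filter (fun p : S × S => c p.1 ≠ c p.2 ∧ d p.1 ≠ d p.2), (a p.1 p.2 : ℤ) := by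
  have h1 : univ.filter (fun p : S × S => c p.1 ≠ c p.2 ∧ d p.1 ≠ d p.2) =
      crP c d ∪ univ.filter (fun p : S × S => c p.1 ≠ c p.2 ∧ d p.2 < d p.1) := by
    ext p
    simp only [crP, mem_filter, mem_univ, true_and, mem_union]
    omega
  have hd : Disjoint (crP c d)
      (univ.filter (fun p : S × S => c p.1 ≠ c p.2 ∧ d p.2 < d p.1)) := by
    rw [disjoint_left]
    intro p h1 h2
    simp only [crP, mem_filter, mem_univ, true_and] at h1 h2
    omega
  have h2 := sym_sum hsym hm (fun i j => (Nat.unpair i).1 ≠ (Nat.unpair j).1 ∧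
    (Nat.unpair i).2 < (Nat.unpair j).2) (fun i h => lt_irrefl _ h.2)
  simp only [meet, Nat.unpair_pair] at h2
  have h3 := sum_swap (a := a) (fun s t => c s ≠ c t ∧ d s < d t)
  rw [h1, sum_union hd]
  have h4 : ∑ p ∈ univ.filter (fun p : S × S => c p.1 ≠ c p.2 ∧ d p.2 < d p.1),
      (a p.1 p.2 : ℤ) = ∑ p ∈ crP c d, (a p.1 p.2 : ℤ) := by
    unfold crP
    rw [h2, h3]
    refine sum_congr ?_ fun _ _ => rfl
    ext p
    simp only [mem_filter, mem_univ, true_and]
    rw [ne_comm]
  rw [h4]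
  ring

/-- `C_κ + deg K^cross = C_c + C_d`. -/
theorem CC_meet (hsym : SymZ a θ) {c d : S → ℕ} (hc : Zc θ c) (hd : Zc θ d)
    (hm : Zc θ (meet c d)) :
    CC a (meet c d) + ∑ p ∈ crP c d, (a p.1 p.2 : ℤ) = CC a c + CC a d := by
  have h1 := two_CC hsym hc
  have h2 := two_CC hsym hd
  have h3 := two_CC hsym hm
  have h4 := cross_sum hsym hm
  have h5 : univ.filter (fun p : S × S => meet c d p.1 ≠ meet c d p.2) =
      univ.filter (fun p : S × S => c p.1 ≠ c p.2) ∪
      univ.filter (fun p : S × S => d p.1 ≠ d p.2) := by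
    ext p
    simp only [mem_filter, mem_univ, true_and, mem_union, ne_eq, meet_eq_iff]
    tauto
  have h6 : univ.filter (fun p : S × S => c p.1 ≠ c p.2 ∧ d p.1 ≠ d p.2) =
      univ.filter (fun p : S × S => c p.1 ≠ c p.2) ∩
      univ.filter (fun p : S × S => d p.1 ≠ d p.2) := by
    ext p
    simp only [mem_filter, mem_univ, true_and, mem_inter]
  have h7 := sum_union_inter (f := fun p : S × S => (a p.1 p.2 : ℤ))
    (s₁ := univ.filter (fun p : S × S => c p.1 ≠ c p.2))
    (s₂ := univ.filter (fun p : S × S => d p.1 ≠ d p.2))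
  rw [← h5, ← h6, ← h1, ← h2, ← h3, ← h4] at h7
  linarith

end

end Vale.Agent.P066.Lab
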